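import Vale.Agent.P181.BL.Defs
import Vale.Agent.P181.TL.H307.LowB

set_option autoImplicit false

/-!
# P181, BL, block (B9): the lower bound

Contents `c (i, ρ) = (f i + ρ) / q`, sizes `s (i, ρ) = D + 1 + (m + r + 1) X + q (i / m) + ρ`,
labels of total degree `s - c`, heads from `HeadR`.
-/

open MvPolynomial

namespace Vale.Agent.P181.BL.H481

open Vale.Agent.P181.T4 (HW)
open Vale.Agent.P181.H280 (plethMult)
open Vale.Agent.P181.SZ
open Vale.Agent.P181.TL
open Vale.Agent.P181.TL.H307 (sum_bal mem_PT)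
open Vale.Agent.P181.BL

/-- Balanced cut of a number in `q` pieces. -/
theorem sum_cut (q x : ℕ) (hq : 0 < q) : ∑ ρ : Fin q, (x + (ρ : ℕ)) / q = x := by
  rw [Fin.sum_univ_eq_sum_range (fun i => (x + i) / q) q]
  induction x with
  | zero =>
    apply Finset.sum_eq_zero
    intro i hi
    rw [zero_add]
    exact Nat.div_eq_of_lt (Finset.mem_range.1 hi)
  | succ x ih =>
    have h1 := Finset.sum_range_succ (fun i => (x + i) / q) q
    have h2 := Finset.sum_range_succ' (fun i => (x + i) / q) q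
    have h3 : (x + q) / q = x / q + 1 := Nat.add_div_right x hq
    have h4 : ∑ i ∈ Finset.range q, (x + 1 + i) / q = ∑ i ∈ Finset.range q, (x + (i + 1)) / q :=
      Finset.sum_congr rfl fun i _ => by rw [show x + 1 + i = x + (i + 1) by omega]
    rw [h4]
    rw [h1, ih] at h2
    simp only [add_zero] at h2
    omega

/-- The sizes determine the group and the piece. -/
theorem size_inj {q K x y ρ σ : ℕ} (hρ : ρ < q) (hσ : σ < q) (h : K + q * x + ρ = K + q * y + σ) :
    x = y ∧ ρ = σ := by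
  have hq0 : 0 < q := by omega
  have h' : q * x + ρ = q * y + σ := by omega
  have e1 : (q * x + ρ) / q = x := by
    rw [Nat.mul_add_div hq0, Nat.div_eq_of_lt hρ, add_zero]
  have e2 : (q * y + σ) / q = y := by
    rw [Nat.mul_add_div hq0, Nat.div_eq_of_lt hσ, add_zero]
  have e : x = y := by rw [← e1, ← e2, h']
  refine ⟨e, ?_⟩
  rw [e] at h'
  omega

theorem sum_ap {k : ℕ} (r : ℕ) (al : ℕ → ℕ) (tau : Fin k → ℕ) :
    ∑ i, ap r al tau i = ∑ l : Fin r, al l + ∑ i, tau i := by
  rw [← (finCongr (Nat.add_comm r k)).sum_comp, Fin.sum_univ_add]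
  congr 1
  · refine Finset.sum_congr rfl fun l _ => ?_
    simp [ap]
  · refine Finset.sum_congr rfl fun i _ => ?_
    simp [ap]

/-- **(B9)** -/
theorem lowR (hRef : RefB) (hLift : LiftR) (hKey : KeyR) (hHead : HeadR) (hLow : LowerS)
    (hTr : TransS) : LowR := by
  intro a b k r q m X lam f hanti hsum ha hr hq hm hX h32 hf h2 h3 h4
  classical
  set t := ∑ i, tail lam i with ht
  set w := ∑ i, tl lam i with hw
  obtain ⟨D, hD⟩ : ∃ D, D = t / a / q := ⟨_, rfl⟩
  rw [← hD] at h2
  -- contents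
  set c : Fin a × Fin q → ℕ := fun j => (f j.1 + (j.2 : ℕ)) / q with hc
  set s : Fin a × Fin q → ℕ := fun j =>
    D + 1 + (m + r + 1) * X + q * ((j.1 : ℕ) / m) + (j.2 : ℕ) with hs
  set e : Fin a × Fin q → ℕ := fun j => s j - c j with he
  have hfi : ∀ i, t / a ≤ f i ∧ f i ≤ t / a + 1 := by
    intro i
    rw [hf i]
    split_ifs <;> omega
  have hcle : ∀ j, c j ≤ D + 1 := by
    intro j
    have h5 := (hfi j.1).2
    have h6 := j.2.2
    calc c j ≤ (t / a + q) / q := Nat.div_le_div_right (by omega)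
      _ = t / a / q + 1 := Nat.add_div_right _ hq
      _ = D + 1 := by rw [hD]
  have hcge : ∀ j, D ≤ c j := by
    intro j
    rw [hD]
    exact Nat.div_le_div_right (by have := (hfi j.1).1; omega)
  have hqm : ∀ i : Fin a, q * ((i : ℕ) / m) ≤ q * (a / m) := fun i =>
    Nat.mul_le_mul_left q (Nat.div_le_div_right i.2.le)
  set W := 1 + (m + r + 1) * X + q * (a / m) + q with hW
  have hsj : ∀ j, s j = D + 1 + (m + r + 1) * X + q * ((j.1 : ℕ) / m) + (j.2 : ℕ) := fun _ => rfl
  have hej : ∀ j, e j = s j - c j := fun _ => rfl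
  have hce : ∀ j, c j + e j = s j := by
    intro j
    have h5 := hcle j
    have h6 := hsj j
    have h7 := hej j
    omega
  have he1 : ∀ j, (m + r + 1) * X ≤ e j := by
    intro j
    have h5 := hcle j
    have h6 := hsj j
    have h7 := hej j
    omega
  have he2 : ∀ j, e j ≤ W := by
    intro j
    have h5 := hcge j
    have h6 := hsj j
    have h7 := hej j
    have h8 := hqm j.1
    have h9 := j.2.2
    omega
  have hsU : ∀ j, 2 * s j ≤ a := by
    intro j
    have h6 := hsj j
    have h8 := hqm j.1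
    have h9 := j.2.2
    omega
  have hs2 : ∀ j, 2 ≤ s j := by
    intro j
    have h6 := hsj j
    have h8 : 1 ≤ (m + r + 1) * X := Nat.mul_pos (by omega) (by omega)
    omega
  have hEb : ∑ j, e j ≤ Eb a q m X r := by
    calc ∑ j, e j ≤ ∑ _j : Fin a × Fin q, W := Finset.sum_le_sum fun j _ => he2 j
      _ = a * q * W := by
        rw [Finset.sum_const, Finset.card_univ, Fintype.card_prod, Fintype.card_fin,
          Fintype.card_fin, smul_eq_mul]
      _ = Eb a q m X r := by rw [Eb]; ring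
  have hcs : ∀ i, ∑ ρ, c (i, ρ) = f i := fun i => sum_cut q (f i) hq
  have hcsum : ∑ j, c j = t := by
    rw [Fintype.sum_prod_type]
    calc ∑ i : Fin a, ∑ ρ : Fin q, c (i, ρ)
        = ∑ i : Fin a, (t / a + if (i : ℕ) < t % a then 1 else 0) :=
          Finset.sum_congr rfl fun i _ => (hcs i).trans (hf i)
      _ = t := sum_bal a t ha
  -- labels
  obtain ⟨ms, VS, k1, k2, k3, k4⟩ := hKey a q m X r e ha hq hm hX hr he1
  have hXpos : 0 < X ^ (r * (q * a)) := pow_pos (by omega) _
  obtain ⟨v0, hv0⟩ : VS.Nonempty := by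
    rw [← Finset.card_pos]
    by_contra hcon
    have h5 : VS.card = 0 := by omega
    rw [h5, mul_zero] at k4
    omega
  have hms : ∑ l, ms l = ∑ j, e j := by
    calc ∑ l, ms l = ∑ l, ∑ j, v0 (l, j) := Finset.sum_congr rfl fun l _ => (k2 v0 hv0 l).symm
      _ = ∑ j, ∑ l, v0 (l, j) := Finset.sum_comm
      _ = ∑ j, e j := Finset.sum_congr rfl fun j _ => k1 v0 hv0 j
  have hmsle : ∀ l, ms l ≤ ∑ l, ms l := fun l =>
    Finset.single_le_sum (f := ms) (fun _ _ => Nat.zero_le _) (Finset.mem_univ l)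
  -- the block
  set al : ℕ → ℕ := fun l => if h : l + 1 < k + 1 + r + 2 then lam ⟨l + 1, h⟩ else 0 with hal
  have hal' : ∀ l (h : l + 1 < k + 1 + r + 2), al l = lam ⟨l + 1, h⟩ := fun l h => dif_pos h
  have hall : ∀ l : Fin (r + 1), lam ⟨r + 1, by omega⟩ ≤ al l := by
    intro l
    rw [hal' l (by omega)]
    apply hanti
    rw [Fin.mk_le_mk]
    omega
  have hap : (ap (r + 1) al (tail lam) : Fin (k + 1 + (r + 1)) → ℕ) = tl lam := by
    funext i
    have hi := i.2
    by_cases h5 : (i : ℕ) < r + 1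
    · rw [ap, dif_pos h5, hal' _ (by omega)]
      rfl
    · rw [ap, dif_neg h5]
      show lam _ = lam _
      congr 1
      apply Fin.ext
      show (i : ℕ) - (r + 1) + r + 2 = (i : ℕ) + 1
      omega
  have hwsum : w = ∑ l : Fin (r + 1), al l + t := by
    have h5 : ∑ i : Fin (k + 1 + (r + 1)), (tl lam : Fin (k + 1 + (r + 1)) → ℕ) i =
        ∑ l : Fin (r + 1), al l + ∑ i, tail lam i := by
      rw [← hap]
      exact sum_ap (r + 1) al (tail lam)
    exact h5
  have hE : ∑ l, ms l ≤ Eb a q m X r := hms.le.trans hEb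
  -- heads
  have hH : ∀ l : Fin (r + 1), ms l ≤ al l ∧ 8 * (r + 1) * a ≤ al l - ms l := by
    intro l
    have h5 := hall l
    have h6 := hmsle l
    constructor <;> omega
  obtain ⟨h, p, p1, p2, p3, p4, p5⟩ := hHead a (r + 1) (fun l => al l - ms l) (Nat.succ_pos r) h32
    (fun l => (hH l).2)
  have hHs : ∑ l : Fin (r + 1), (al l - ms l) + ∑ l, ms l = ∑ l : Fin (r + 1), al l := by
    rw [← Finset.sum_add_distrib]
    exact Finset.sum_congr rfl fun l _ => Nat.sub_add_cancel (hH l).1
  have hps : ∑ x : (Σ l, Fin (h l)), p x = ∑ l : Fin (r + 1), (al l - ms l) := by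
    rw [Fintype.sum_sigma]
    exact Finset.sum_congr rfl fun l _ => p3 l
  have hss : ∑ j, s j = t + ∑ l, ms l := by
    rw [hms, ← hcsum, ← Finset.sum_add_distrib]
    exact Finset.sum_congr rfl fun j _ => (hce j).symm
  -- the lift
  have hLif := hLift k (r + 1) (Fin a × Fin q) (Σ l, Fin (h l)) (fun x => x.1) s p c ms al
    (tail lam) VS (Nat.succ_pos r)
    (fun j x => by
      have h5 := hsU j
      have h6 := p1 x
      omega)
    p4 hcsum
    (fun v hv j => by rw [k1 v hv j, hce])
    k2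
    (fun v hv v' hv' j j' hss hne => by
      obtain ⟨e1, e2⟩ := size_inj j.2.2 j'.2.2 hss
      exact k3 v hv v' hv' j j' e1 (Fin.ext e2) hne)
    (fun l hl => by
      rw [hal' l (by omega), hal' (l + 1) (by omega)]
      apply hanti
      rw [Fin.mk_le_mk]
      omega)
    (by
      have h5 : al (r + 1 - 1) = lam ⟨r + 1, by omega⟩ := hal' r (by omega)
      have h6 : tail lam 0 = lam ⟨r + 2, by omega⟩ := by
        show lam _ = lam _
        congr 1
        apply Fin.ext
        show ((0 : Fin (k + 1)) : ℕ) + r + 2 = r + 2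
        rw [Fin.val_zero, zero_add]
      rw [h5, h6]
      omega)
    (fun l => by
      have h5 : ∑ x : (Σ l, Fin (h l)), (if x.1 = l then p x else 0) = al l - ms l := by
        rw [Fintype.sum_sigma, Finset.sum_eq_single l]
        · rw [← p3 l]
          exact Finset.sum_congr rfl fun y _ => if_pos rfl
        · intro l' _ hl'
          exact Finset.sum_eq_zero fun y _ => if_neg hl'
        · intro h6
          exact absurd (Finset.mem_univ _) h6
      rw [h5]
      exact Nat.sub_add_cancel (hH l).1)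
  -- the type
  have hstep : X ^ (r * (q * a)) * Module.finrank ℂ (KK (k + 1) (Fin a) f (tail lam)) ≤
      (Eb a q m X r + 1) ^ (r + 1) *
        Module.finrank ℂ (PK (k + 1 + (r + 1)) ((Fin a × Fin q) ⊕ (Σ l, Fin (h l)))
          (Sum.elim s p) (ap (r + 1) al (tail lam))) := by
    calc X ^ (r * (q * a)) * Module.finrank ℂ (KK (k + 1) (Fin a) f (tail lam))
        ≤ ((∑ j, e j + 1) ^ (r + 1) * VS.card) *
          Module.finrank ℂ (KK (k + 1) (Fin a × Fin q) c (tail lam)) :=
          Nat.mul_le_mul k4 (hRef (k + 1) (Fin a) (Fin q) f c _ hcs)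
      _ = (∑ j, e j + 1) ^ (r + 1) *
          (VS.card * Module.finrank ℂ (KK (k + 1) (Fin a × Fin q) c (tail lam))) :=
          mul_assoc _ _ _
      _ ≤ _ := Nat.mul_le_mul (Nat.pow_le_pow_left (by omega) _) hLif
  refine le_trans hstep (Nat.mul_le_mul_left _ ?_)
  rw [hTr, hap]
  have hpos : ∀ x : (Fin a × Fin q) ⊕ (Σ l, Fin (h l)), 2 ≤ Sum.elim s p x ∧ Sum.elim s p x ≤ a := by
    rintro (j | x)
    · exact ⟨hs2 j, by have := hsU j; simp only [Sum.elim_inl]; omega⟩
    · exact ⟨by have := p1 x; simp only [Sum.elim_inr]; omega, p2 x⟩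
  have hfil : ((Finset.univ.val.map (Sum.elim s p)).filter (0 < ·)) =
      Finset.univ.val.map (Sum.elim s p) := by
    refine Multiset.filter_eq_self.2 fun x hx => ?_
    obtain ⟨y, _, rfl⟩ := Multiset.mem_map.1 hx
    exact lt_of_lt_of_le (by norm_num) (hpos y).1
  rw [hfil]
  refine le_trans ?_ (hLow a b (k + 1 + r + 1) lam hsum)
  refine Finset.single_le_sum (f := fun κ => nn (k + 1 + r + 1) (tl lam) κ)
    (fun _ _ => Nat.zero_le _) (Finset.mem_filter.2 ⟨mem_PT ?_ ?_, ?_, ?_⟩)
  · change ∑ x, Sum.elim s p x = w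
    rw [Fintype.sum_sum_type]
    simp only [Sum.elim_inl, Sum.elim_inr]
    rw [hss, hps, hwsum, ← hHs]
    ring
  · intro x hx
    obtain ⟨y, _, rfl⟩ := Multiset.mem_map.1 hx
    exact (hpos y).1
  · intro x hx
    obtain ⟨y, _, rfl⟩ := Multiset.mem_map.1 hx
    exact (hpos y).2
  · rw [Multiset.card_map]
    change 3 * Finset.card Finset.univ ≤ b
    rw [Finset.card_univ, Fintype.card_sum, Fintype.card_prod, Fintype.card_fin, Fintype.card_fin,
      Fintype.card_sigma]
    simp only [Fintype.card_fin]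
    -- the number of heads
    have h5 : ∑ l : Fin (r + 1), (al l - ms l) ≤ w := by
      have := hHs
      omega
    have h6 : a * ∑ l, h l < a * (2 * (w / a) + 2) := by
      have h7 := Nat.lt_mul_div_succ w ha
      calc a * ∑ l, h l ≤ 2 * ∑ l : Fin (r + 1), (al l - ms l) := p5
        _ ≤ 2 * w := by omega
        _ < 2 * (a * (w / a + 1)) := by omega
        _ = a * (2 * (w / a) + 2) := by ring
    have h8 : ∑ l, h l < 2 * (w / a) + 2 := Nat.lt_of_mul_lt_mul_left h6
    have h9 : 3 * (a * q + ∑ l, h l) = 3 * q * a + 3 * ∑ l, h l := by ring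
    rw [h9]
    omega

end Vale.Agent.P181.BL.H481
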